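import Vale.Agent.P025.R2.H725.RankFull
import Vale.Agent.P025.R2.H352.FinG
import Vale.Agent.P025.R2.H628.Three5
import Vale.Agent.P025.R2.H851.A21

/-! # P025 : (III) over `Cp p kb`, from the row VALUE -/

set_option linter.all false

universe u v

open TensorProduct

namespace P025H725

open Vale.Agent.P019P P025H373 P025H722 P025H628

section

variable (C : Type u) [NontriviallyNormedField C] [IsUltrametricDist C] [CompleteSpace C]
  [IsAlgClosed C] [CharZero C]

/-- (8.1), the two forms exchanged -/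
theorem rank2_full' {p : ℕ} (hp : p.Prime) (hpC : ‖(p : C)‖ < 1) : P025H352.Rank2 C p := by
  intro K _ _ _ hg
  obtain ⟨Z, i1, i2, i3, i4, i5, i6, hin, D, f, f', θ, θ', hD, hf, hf', hθ, hθ', h0, hne⟩ :=
    rank2_full C hp hpC K hg
  exact ⟨Z, i1, i2, i3, i4, i5, i6, hin, D, f', f, θ', θ, hD, hf', hf, hθ', hθ, h0, hne⟩

/-- (III) from RNS at the poles -/
theorem three_full : P025H352.Three C := by
  intro K _ _ _ _ _ _ m l hl hlm hR
  exact P025H628.three C K m l hl hlm hR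

variable {C}

/-- (III) in the form used by part A -/
theorem stmtIII_of_mainIII (h : P025H352.MainIII C) : P025H851.StmtIII.{u, u} C := by
  intro K _ _ _ _ _ _ hg q hq x hx hd
  obtain ⟨r0, Nm, hr0, h1⟩ := h K hg
  have hq0 : 0 < q := hq.pos
  have hqC : (0 : ℝ) < ‖(q : C)‖ ^ Nm := by
    have : (q : C) ≠ 0 := by exact_mod_cast hq0.ne'
    positivity
  refine ⟨r0 / ‖(q : C)‖ ^ Nm + 1, fun c hc => ?_⟩
  have h2 : r0 < ‖(c : C)‖ * ‖(q : C)‖ ^ Nm := by
    rw [← div_lt_iff₀ hqC]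
    linarith
  obtain ⟨L, i1, i2, i3, i4, i5, i6, i7, i8, i9, hgal, hsol, hunr, s, hs⟩ :=
    h1 q hq0 c h2 x hx hd
  exact ⟨L, i1, i2, i4, i3, i5, i7, ⟨i9, hgal, hsol, hunr⟩, s, hs⟩

end

variable (p : ℕ) [Fact p.Prime] (Kb : Type u) [Field Kb] [Algebra ℚ_[p] Kb]
  [Algebra.IsAlgebraic ℚ_[p] Kb] [IsAlgClosed Kb]

/-- (III) over `Cp p Kb`, from VALUE -/
theorem mainIII_full (hV : letI := P025H352.algQp p Kb
    P025H352.Value (Cp p Kb) p) : P025H352.MainIII (Cp p Kb) :=
  P025H352.mainIII_Cp p Kb (rank2_full' (Cp p Kb) Fact.out (Cp.norm_p_lt_one p Kb)) hV (three_full _)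

/-- (III) over `Cp p Kb` in the form used by part A, from VALUE -/
theorem stmtIII_full (hV : letI := P025H352.algQp p Kb
    P025H352.Value (Cp p Kb) p) : P025H851.StmtIII.{u, u} (Cp p Kb) :=
  stmtIII_of_mainIII (mainIII_full p Kb hV)

end P025H725
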