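import Vale.Agent.P025.R2.H725.StartFull
import Vale.Agent.P025.R2.H666.Disch
import Vale.Agent.P025.R2.H572.LemAFin

/-! # P025 : two independent Hodge-Tate forms on a solvable unramified cover, without
hypotheses -/

set_option linter.all false

universe u

namespace P025H725

open Vale.Agent.P019P P025H666

/-- **(8.1)** -/
theorem rank2_full (C : Type u) [NontriviallyNormedField C] [IsUltrametricDist C]
    [CompleteSpace C] [IsAlgClosed C] [CharZero C] {p : ℕ} (hp : p.Prime)
    (hpC : ‖(p : C)‖ < 1) : P025H666.Rank2 C p :=
  rank2_of hp hpC (start_row C hp hpC) (P025H666.zero C) (P025H572.lemA hp hpC)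
    (P025H666.mono C) (fun K _ _ _ D f hf => P025H219.exists_isTheta hp.ne_zero hpC D hf)
    (P025H666.onDU C)

end P025H725
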