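import Vale.Agent.P025.R2.H725.Near7
import Vale.Agent.P025.R2.H133.Near
import Vale.Agent.P025.R2.H219.HT4
import Vale.Agent.P025.R2.H352.MainG

/-! # P025 : the row START without hypotheses -/

set_option linter.all false

open Polynomial Metric IntermediateField

universe u

namespace P025H725

open Vale.Agent.P019P P025H373 P025H746 P025H621 P025H816 P025H722 P025H941 P025H352

section

variable (C : Type u) [NontriviallyNormedField C] [IsUltrametricDist C] [IsAlgClosed C]
  [CharZero C]

/-- (7.2) over a spherically complete field with surjective norm -/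
theorem rowNear_of [CompleteSpace C] (hC : P025H458.Sph C)
    (hn : ∀ r : ℝ, 0 ≤ r → ∃ x : C, ‖x‖ = r) {p : ℕ} (hp : p.Prime) (hpC : ‖(p : C)‖ < 1) :
    RowNear C p :=
  fun L _ _ _ h0 g hg hd T w hw => P025H133.nearAll C hC hn hp hpC L h0 g hg hd T w hw

theorem sph_cstar : P025H458.Sph (CStar C) :=
  P025H458.Sph.of_balls fun a r h => CStar.exists_mem_balls a r h

theorem norm_p_cstar {p : ℕ} (hpC : ‖(p : C)‖ < 1) : ‖(p : CStar C)‖ < 1 := by
  rw [← map_natCast (algebraMap C (CStar C)) p, CStar.norm_algebraMap_eq]
  exact hpC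

/-- (7.2) over the spherically complete extension -/
theorem rowNear_cstar {p : ℕ} (hp : p.Prime) (hpC : ‖(p : C)‖ < 1) : RowNear (CStar C) p :=
  rowNear_of (CStar C) (sph_cstar C) CStar.exists_norm_eq hp (norm_p_cstar C hpC)

/-- (6.1) -/
theorem rowHT [CompleteSpace C] {p : ℕ} (hp : p.Prime) (hpC : ‖(p : C)‖ < 1) : RowHT C p :=
  fun L _ _ _ => P025H219.hasTheta hp.ne_zero hpC

/-- **the row START** : every function field of genus at least two has a finite solvable
unramified extension with a nonzero Hodge-Tate form. -/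
theorem start_row [CompleteSpace C] {p : ℕ} (hp : p.Prime) (hpC : ‖(p : C)‖ < 1) :
    P025H666.Start C p :=
  start_of_rows hp hpC (rowHT C hp hpC) (rowHT (CStar C) hp (norm_p_cstar C hpC))
    (rowNear_cstar C hp hpC)

end

end P025H725
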